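import Mathlib

/-! Mixed radix digits of positions, and the two counting lemmas. -/

set_option autoImplicit false

namespace Crest.Agent.R210

open Finset

/-- node number from the top digits -/
def nid (m N : ℕ) : ℕ → ℕ → ℕ
  | 0, _ => 0
  | r + 1, a => nid m N r (a / (N * m)) * m + a % m

/-- number of the level `h` node above position `p` -/
def idn (k m N h p : ℕ) : ℕ := nid m N (k - h) (p / (N * m) ^ h)

/-- copy digit -/
def sig (m N h p : ℕ) : ℕ := p / ((N * m) ^ h * m) % N

/-- shifted copy digit -/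
def sg (m N : ℕ) : ℕ → ℕ → ℕ
  | 0, _ => 0
  | h + 1, p => sig m N h p

variable {k m N : ℕ}

lemma nid_lt (hm : 0 < m) (r : ℕ) : ∀ a, nid m N r a < m ^ r := by
  induction r with
  | zero => intro a; simp [nid]
  | succ r ih =>
    intro a
    have h1 := ih (a / (N * m))
    have h2 := Nat.mod_lt a hm
    rw [nid, pow_succ]
    nlinarith

lemma idn_lt (hm : 0 < m) (h p : ℕ) : idn k m N h p < m ^ (k - h) := nid_lt hm _ _

lemma idn_lt' (hm : 0 < m) (h p : ℕ) : idn k m N h p < m ^ k :=
  (idn_lt hm h p).trans_le (Nat.pow_le_pow_right hm (Nat.sub_le _ _))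

lemma idn_top (p : ℕ) : idn k m N k p = 0 := by simp [idn, nid]

lemma idn_succ {h : ℕ} (hk : h < k) (p : ℕ) :
    idn k m N h p = idn k m N (h + 1) p * m + p / (N * m) ^ h % m := by
  unfold idn
  rw [show k - h = (k - (h + 1)) + 1 by omega, nid, Nat.div_div_eq_div_mul, ← pow_succ]

lemma idn_div (hm : 0 < m) {h : ℕ} (hk : h < k) (p : ℕ) :
    idn k m N h p / m = idn k m N (h + 1) p := by
  rw [idn_succ hk, mul_comm, Nat.mul_add_div hm, Nat.div_eq_of_lt (Nat.mod_lt _ hm), add_zero]

lemma idn_mod {h : ℕ} (hk : h < k) (p : ℕ) :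
    idn k m N h p % m = p / (N * m) ^ h % m := by
  rw [idn_succ hk, mul_comm, Nat.mul_add_mod, Nat.mod_mod]

lemma idn_eq_of_zero (hm : 0 < m) {p p' : ℕ} (h0 : idn k m N 0 p = idn k m N 0 p') :
    ∀ h, h ≤ k → idn k m N h p = idn k m N h p' := by
  intro h
  induction h with
  | zero => intro _; exact h0
  | succ h ih =>
    intro hk
    rw [← idn_div hm (by omega), ← idn_div hm (by omega), ih (by omega)]

lemma sig_top (hm : 0 < m) {p : ℕ} (hp : p < (N * m) ^ k) : sig m N k p = 0 := by
  unfold sig
  rw [Nat.div_eq_of_lt (hp.trans_le (Nat.le_mul_of_pos_right _ hm)), Nat.zero_mod]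

section shift
variable (hm : 0 < m) (hN : 0 < N) {j p c : ℕ} (hc : sig m N j p + c < N)
include hm hN hc

lemma shift_div_succ :
    (p + c * ((N * m) ^ j * m)) / (N * m) ^ (j + 1) = p / (N * m) ^ (j + 1) := by
  have hΛ : 0 < (N * m) ^ j * m := by positivity
  have e : (N * m) ^ (j + 1) = ((N * m) ^ j * m) * N := by ring
  rw [e, ← Nat.div_div_eq_div_mul _ _ N, ← Nat.div_div_eq_div_mul _ _ N,
    Nat.add_mul_div_right _ _ hΛ]
  unfold sig at hc
  set A := p / ((N * m) ^ j * m)
  have h1 := Nat.div_add_mod A N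
  rw [show A + c = (A % N + c) + N * (A / N) by omega, Nat.add_mul_div_left _ _ hN,
    Nat.div_eq_of_lt hc, zero_add]

lemma shift_div {h : ℕ} (hh : j < h) :
    (p + c * ((N * m) ^ j * m)) / (N * m) ^ h = p / (N * m) ^ h := by
  obtain ⟨r, rfl⟩ : ∃ r, h = j + 1 + r := ⟨h - (j + 1), by omega⟩
  rw [pow_add, ← Nat.div_div_eq_div_mul, shift_div_succ hm hN hc, Nat.div_div_eq_div_mul]

lemma shift_lt (hj : j < k) (hp : p < (N * m) ^ k) : p + c * ((N * m) ^ j * m) < (N * m) ^ k := by
  have h1 := shift_div hm hN hc hj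
  rw [Nat.div_eq_of_lt hp] at h1
  have : 0 < (N * m) ^ k := by positivity
  exact (Nat.div_eq_zero_iff_lt this).1 h1

lemma shift_sig (h : ℕ) :
    sig m N h (p + c * ((N * m) ^ j * m)) = sig m N h p + if h = j then c else 0 := by
  rcases lt_trichotomy h j with hh | rfl | hh
  · rw [if_neg hh.ne, add_zero]
    obtain ⟨r, rfl⟩ : ∃ r, j = h + 1 + r := ⟨j - (h + 1), by omega⟩
    unfold sig
    have hΛ : 0 < (N * m) ^ h * m := by positivity
    rw [show c * ((N * m) ^ (h + 1 + r) * m) = (c * (N * m) ^ r * m * N) * ((N * m) ^ h * m) by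
      ring, Nat.add_mul_div_right _ _ hΛ, Nat.add_mul_mod_self_right]
  · rw [if_pos rfl]
    unfold sig at hc ⊢
    have hΛ : 0 < (N * m) ^ h * m := by positivity
    rw [Nat.add_mul_div_right _ _ hΛ, ← Nat.mod_add_mod, Nat.mod_eq_of_lt hc]
  · rw [if_neg hh.ne', add_zero]
    unfold sig
    rw [← Nat.div_div_eq_div_mul, shift_div hm hN hc hh, Nat.div_div_eq_div_mul]

lemma shift_sg (h : ℕ) :
    sg m N h (p + c * ((N * m) ^ j * m)) = sg m N h p + if h = j + 1 then c else 0 := by
  cases h with
  | zero => simp [sg]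
  | succ h => simp [sg, shift_sig hm hN hc]

lemma shift_idn (hj : j < k) (h : ℕ) :
    idn k m N h (p + c * ((N * m) ^ j * m)) = idn k m N h p := by
  have key : ∀ r h, h + r = j + 1 →
      idn k m N h (p + c * ((N * m) ^ j * m)) = idn k m N h p := by
    intro r
    induction r with
    | zero =>
      intro h hh
      unfold idn
      rw [shift_div hm hN hc (by omega)]
    | succ r ih =>
      intro h hh
      rw [idn_succ (by omega : h < k), idn_succ (by omega : h < k), ih (h + 1) (by omega)]
      congr 1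
      obtain rfl : j = h + r := by omega
      have hΛ : 0 < (N * m) ^ h := by positivity
      rw [show c * ((N * m) ^ (h + r) * m) = (c * (N * m) ^ r * m) * ((N * m) ^ h) by
        ring, Nat.add_mul_div_right _ _ hΛ, Nat.add_mul_mod_self_right]
  rcases le_or_gt h (j + 1) with hh | hh
  · exact key (j + 1 - h) h (by omega)
  · unfold idn
    rw [shift_div hm hN hc (by omega)]

end shift

/-- positions whose copy digit overflows -/
lemma card_overflow (hm : 0 < m) (hN : 0 < N) {j : ℕ} (hj : j < k) (s : ℕ) :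
    N * ((range ((N * m) ^ k)).filter fun p => N ≤ sig m N j p + s).card ≤ (N * m) ^ k * s := by
  obtain ⟨r, rfl⟩ : ∃ r, k = j + 1 + r := ⟨k - (j + 1), by omega⟩
  set Λ := (N * m) ^ j * m with hΛ
  have hΛ0 : 0 < Λ := by positivity
  have h1 : ((range ((N * m) ^ (j + 1 + r))).filter fun p => N ≤ sig m N j p + s).card ≤
      (range ((N * m) ^ r) ×ˢ range s ×ˢ range Λ).card := by
    refine Finset.card_le_card_of_injOn (fun p => (p / Λ / N, p / Λ % N + s - N, p % Λ)) ?_ ?_
    · intro p hp
      simp only [coe_filter, mem_range, Set.mem_ofPred_eq, sig, ← hΛ] at hp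
      simp only [coe_product, coe_range, Set.mem_prod, Set.mem_Iio]
      refine ⟨?_, ?_, Nat.mod_lt _ hΛ0⟩
      · rw [Nat.div_div_eq_div_mul, Nat.div_lt_iff_lt_mul (by positivity)]
        refine hp.1.trans_eq ?_
        rw [hΛ]; ring
      · have := Nat.mod_lt (p / Λ) hN
        omega
    · intro p hp p' hp' he
      simp only [coe_filter, mem_range, Set.mem_ofPred_eq, sig, ← hΛ] at hp hp'
      simp only [Prod.mk.injEq] at he
      have h2 : p / Λ % N = p' / Λ % N := by omega
      have h3 : p / Λ = p' / Λ := by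
        rw [← Nat.div_add_mod (p / Λ) N, ← Nat.div_add_mod (p' / Λ) N, he.1, h2]
      rw [← Nat.div_add_mod p Λ, ← Nat.div_add_mod p' Λ, h3, he.2.2]
  simp only [card_product, card_range] at h1
  calc _ ≤ N * ((N * m) ^ r * (s * Λ)) := Nat.mul_le_mul_left _ h1
    _ = _ := by rw [hΛ]; ring

/-- the prime of the node `(h, y)` -/
noncomputable def PP (m h y : ℕ) : ℕ := Nat.nth Nat.Prime (2 * (y % m) + h % 2)

lemma PP_prime (m h y : ℕ) : (PP m h y).Prime := Nat.prime_nth_prime _

lemma PP_coprime (m h y y' : ℕ) : Nat.Coprime (PP m (h + 1) y) (PP m h y') := by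
  rw [Nat.coprime_primes (PP_prime _ _ _) (PP_prime _ _ _)]
  intro he
  have := Nat.nth_injective Nat.infinite_setOfPred_prime he
  omega

lemma card_dvd_le {q δ : ℕ} (h : ℕ) (h0 : 0 < δ) (hδ : δ < 2 ^ q) :
    ((range m).filter fun i => PP m h i ∣ δ).card ≤ q := by
  have h1 : ((range m).filter fun i => PP m h i ∣ δ).card ≤ δ.primeFactors.card := by
    refine Finset.card_le_card_of_injOn (PP m h) ?_ ?_
    · intro i hi
      simp only [coe_filter, mem_range, Set.mem_ofPred_eq] at hi
      exact Nat.mem_primeFactors.2 ⟨PP_prime _ _ _, hi.2, h0.ne'⟩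
    · intro i hi i' hi' he
      simp only [coe_filter, mem_range, Set.mem_ofPred_eq] at hi hi'
      have := Nat.nth_injective Nat.infinite_setOfPred_prime he
      rw [Nat.mod_eq_of_lt hi.1, Nat.mod_eq_of_lt hi'.1] at this
      omega
  have h2 : 2 ^ δ.primeFactors.card ≤ ∏ p ∈ δ.primeFactors, p :=
    Finset.pow_card_le_prod _ _ _ fun p hp => (Nat.prime_of_mem_primeFactors hp).two_le
  have h3 := Nat.le_of_dvd h0 (Nat.prod_primeFactors_dvd δ)
  have h4 : δ.primeFactors.card < q := (Nat.pow_lt_pow_iff_right (by norm_num : 1 < 2)).1 (by omega)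
  omega

/-- lucky pairs along a monotone matching -/
lemma card_lucky (hm : 0 < m) (hN : 0 < N) {q h ℓ : ℕ} (hq : N ≤ 2 ^ q) (hk : h < k)
    (f g : Fin ℓ → ℕ) (hf : StrictMono f) (hg : StrictMono g) (hfn : ∀ t, f t < (N * m) ^ k)
    (hgn : ∀ t, g t < (N * m) ^ k) :
    m * (univ.filter fun t => sig m N h (f t) ≠ sig m N h (g t) ∧
      sig m N h (f t) ≡ sig m N h (g t) [MOD PP m h (idn k m N h (f t))]).card ≤
        2 * q * (N * m) ^ k := by
  classical
  obtain ⟨r, rfl⟩ : ∃ r, k = h + 1 + r := ⟨k - (h + 1), by omega⟩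
  set Λ := (N * m) ^ h * m with hΛ
  have hΛ0 : 0 < Λ := by positivity
  have hQ : 0 < (N * m) ^ h := by positivity
  set T := univ.filter fun t => sig m N h (f t) ≠ sig m N h (g t) ∧
      sig m N h (f t) ≡ sig m N h (g t) [MOD PP m h (idn (h + 1 + r) m N h (f t))] with hT
  have hA : ∀ p, p < (N * m) ^ (h + 1 + r) → p / Λ < N * (N * m) ^ r := by
    intro p hp
    rw [Nat.div_lt_iff_lt_mul hΛ0]
    refine hp.trans_eq ?_
    rw [hΛ]; ring
  have h1 : T.card ≤ (q * (N * m) ^ h) * (range (2 * (N * (N * m) ^ r))).card := by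
    refine Finset.card_le_mul_card_image_of_maps_to (f := fun t => f t / Λ + g t / Λ) ?_ _ ?_
    · intro t _
      have := hA _ (hfn t)
      have := hA _ (hgn t)
      simp only [mem_range]
      omega
    · intro v _
      rcases (T.filter fun t => f t / Λ + g t / Λ = v).eq_empty_or_nonempty with he | ⟨t₀, ht₀⟩
      · rw [he]; simp
      have hsame : ∀ t ∈ T.filter fun t => f t / Λ + g t / Λ = v,
          f t / Λ = f t₀ / Λ ∧ g t / Λ = g t₀ / Λ := by
        intro t ht
        have e1 := (mem_filter.1 ht).2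
        have e2 := (mem_filter.1 ht₀).2
        rcases le_total t t₀ with hle | hle
        · have a1 : f t / Λ ≤ f t₀ / Λ := Nat.div_le_div_right (hf.monotone hle)
          have a2 : g t / Λ ≤ g t₀ / Λ := Nat.div_le_div_right (hg.monotone hle)
          omega
        · have a1 : f t₀ / Λ ≤ f t / Λ := Nat.div_le_div_right (hf.monotone hle)
          have a2 : g t₀ / Λ ≤ g t / Λ := Nat.div_le_div_right (hg.monotone hle)
          omega
      set a := f t₀ / Λ % N with ha
      set b := g t₀ / Λ % N with hb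
      have hab : a ≠ b := ((mem_filter.1 (mem_filter.1 ht₀).1).2).1
      have ha' : a < N := Nat.mod_lt _ hN
      have hb' : b < N := Nat.mod_lt _ hN
      have hD := card_dvd_le (m := m) (q := q) (δ := (a - b) + (b - a)) h (by omega) (by omega)
      calc _ ≤ (((range m).filter fun i => PP m h i ∣ (a - b) + (b - a)) ×ˢ
            range ((N * m) ^ h)).card := by
            refine Finset.card_le_card_of_injOn
              (fun t => (f t / (N * m) ^ h % m, f t % (N * m) ^ h)) ?_ ?_
            · intro t ht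
              have e1 := hsame t ht
              have e2 := ((mem_filter.1 (mem_filter.1 ht).1).2).2
              simp only [sig, ← hΛ, e1.1, e1.2, ← ha, ← hb] at e2
              have e3 : PP m h (idn (h + 1 + r) m N h (f t)) =
                  PP m h (f t / (N * m) ^ h % m) := by
                unfold PP
                rw [idn_mod hk, Nat.mod_mod]
              rw [e3] at e2
              simp only [coe_product, coe_filter, coe_range, Set.mem_prod, mem_range,
                Set.mem_ofPred_eq, Set.mem_Iio]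
              exact ⟨⟨Nat.mod_lt _ hm, dvd_add e2.symm.dvd' e2.dvd'⟩, Nat.mod_lt _ hQ⟩
            · intro t ht t' ht' he
              simp only [Prod.mk.injEq] at he
              have e1 := (hsame t ht).1.trans (hsame t' ht').1.symm
              rw [hΛ, ← Nat.div_div_eq_div_mul, ← Nat.div_div_eq_div_mul] at e1
              have e2 : f t / (N * m) ^ h = f t' / (N * m) ^ h := by
                rw [← Nat.div_add_mod (f t / (N * m) ^ h) m,
                  ← Nat.div_add_mod (f t' / (N * m) ^ h) m, e1, he.1]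
              apply hf.injective
              rw [← Nat.div_add_mod (f t) ((N * m) ^ h), ← Nat.div_add_mod (f t') ((N * m) ^ h),
                e2, he.2]
        _ ≤ q * (N * m) ^ h := by
            rw [card_product, card_range]
            exact Nat.mul_le_mul_right _ hD
  rw [card_range] at h1
  calc m * T.card ≤ m * ((q * (N * m) ^ h) * (2 * (N * (N * m) ^ r))) := Nat.mul_le_mul_left _ h1
    _ = _ := by ring

end Crest.Agent.R210
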