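import Crest.Prelude.Def_EditDistance

/-! Edit distance: upper bound through a common sublist, lower bound through embedded code words. -/

set_option autoImplicit false

namespace Crest.Agent.R210

open Crest.GeometryTopology.EditDistance List

variable {α : Type*}

lemma adj_of_ins (l r : List α) (a : α) : (editGraph α).Adj (l ++ a :: r) (l ++ r) := by
  unfold editGraph
  rw [SimpleGraph.fromRel_adj]
  refine ⟨?_, Or.inr (Or.inl ⟨l, r, a, rfl, rfl⟩)⟩
  intro h
  have := congrArg List.length h
  simp at this

lemma walk_of_sublist {W X : List α} (h : W <+ X) :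
    ∀ l : List α, ∃ p : (editGraph α).Walk (l ++ X) (l ++ W), p.length + W.length = X.length := by
  induction h with
  | slnil => intro l; exact ⟨SimpleGraph.Walk.nil, rfl⟩
  | @cons W X a _ ih =>
    intro l
    obtain ⟨p, hp⟩ := ih l
    exact ⟨SimpleGraph.Walk.cons (adj_of_ins l X a) p, by simp; omega⟩
  | @cons_cons W X a _ ih =>
    intro l
    obtain ⟨p, hp⟩ := ih (l ++ [a])
    refine ⟨p.copy (by simp) (by simp), by simp; omega⟩

lemma exists_walk_common {W X Y : List α} (hX : W <+ X) (hY : W <+ Y) :
    ∃ p : (editGraph α).Walk X Y, p.length + 2 * W.length = X.length + Y.length := by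
  obtain ⟨p, hp⟩ := walk_of_sublist hX []
  obtain ⟨q, hq⟩ := walk_of_sublist hY []
  refine ⟨(p.append q.reverse).copy (by simp) (by simp), ?_⟩
  simp
  omega

lemma editDist_le_common {W X Y : List α} (hX : W <+ X) (hY : W <+ Y) :
    editDist X Y + 2 * W.length ≤ X.length + Y.length := by
  obtain ⟨p, hp⟩ := exists_walk_common hX hY
  have := SimpleGraph.dist_le p
  unfold editDist
  omega

lemma reachable_edit (X Y : List α) : (editGraph α).Reachable X Y := by
  obtain ⟨p, -⟩ := exists_walk_common (nil_sublist X) (nil_sublist Y)
  exact ⟨p⟩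

/-- The code words of the letters of `W` occur, in order and disjointly, as factors of `u`. -/
inductive Emb {β : Type*} (c : β → List α) : List β → List α → Prop
  | nil (u : List α) : Emb c [] u
  | cons (a : β) (W : List β) (x u : List α) : Emb c W u → Emb c (a :: W) (x ++ c a ++ u)

lemma Emb.prepend {β : Type*} {c : β → List α} {W : List β} {u : List α} (h : Emb c W u)
    (y : List α) : Emb c W (y ++ u) := by
  cases h with
  | nil => exact Emb.nil _
  | cons a W x u h =>
    have := Emb.cons a W (y ++ x) u h
    simpa [List.append_assoc] using this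

lemma Emb.self {β : Type*} (c : β → List α) (W : List β) : Emb c W (W.flatMap c) := by
  induction W with
  | nil => exact Emb.nil _
  | cons a W ih =>
    have := Emb.cons a W [] _ ih
    simpa using this

lemma Emb.edit {β : Type*} {c : β → List α} {W : List β} {u : List α} (h : Emb c W u) :
    ∀ (l mid r mid' : List α), u = l ++ mid ++ r → mid.length ≤ 1 →
      ∃ W', W' <+ W ∧ W.length ≤ W'.length + 1 ∧ Emb c W' (l ++ mid' ++ r) := by
  induction h with
  | nil u => intro l mid r mid' _ _; exact ⟨[], Sublist.refl _, by simp, Emb.nil _⟩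
  | cons a W x u h ih =>
    intro l mid r mid' he hm
    rw [List.append_assoc l] at he
    rcases List.append_eq_append_iff.1 he with ⟨a', h1, h2⟩ | ⟨c', h1, h2⟩
    · obtain ⟨W', hs, hl, hE⟩ := ih a' mid r mid' (by rw [h2, List.append_assoc]) hm
      refine ⟨a :: W', hs.cons_cons a, by simp; omega, ?_⟩
      have := Emb.cons a W' x _ hE
      rw [h1]
      simpa [List.append_assoc] using this
    · rcases c' with _ | ⟨e, c'⟩
      · obtain ⟨W', hs, hl, hE⟩ := ih [] mid r mid' (by simpa using h2.symm) hm
        refine ⟨a :: W', hs.cons_cons a, by simp; omega, ?_⟩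
        have := Emb.cons a W' x _ hE
        simp only [List.append_nil] at h1
        rw [← h1]
        simpa [List.append_assoc] using this
      · have hr : ∃ y, r = y ++ u := by
          rcases mid with _ | ⟨b, _ | ⟨b', mid⟩⟩
          · exact ⟨e :: c', by simpa using h2⟩
          · simp only [List.cons_append, List.nil_append, List.cons.injEq] at h2
            exact ⟨c', h2.2⟩
          · simp at hm
        obtain ⟨y, rfl⟩ := hr
        refine ⟨W, (Sublist.refl W).cons a, by simp, ?_⟩
        have := h.prepend (l ++ mid' ++ y)
        simpa [List.append_assoc] using this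

lemma Emb.adj {β : Type*} {c : β → List α} {W : List β} {u v : List α} (h : Emb c W u)
    (huv : (editGraph α).Adj u v) :
    ∃ W', W' <+ W ∧ W.length ≤ W'.length + 1 ∧ Emb c W' v := by
  unfold editGraph at huv
  rw [SimpleGraph.fromRel_adj] at huv
  rcases huv.2 with (⟨l, r, a, h1, h2⟩ | ⟨l, r, a, b, -, h1, h2⟩) |
    (⟨l, r, a, h1, h2⟩ | ⟨l, r, a, b, -, h1, h2⟩)
  · have := h.edit l [] r [a] (by simp [h1]) (by simp)
    simpa [h2] using this
  · have := h.edit l [a] r [b] (by simp [h1]) (by simp)
    simpa [h2] using this
  · have := h.edit l [a] r [] (by simp [h2]) (by simp)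
    simpa [h1] using this
  · have := h.edit l [b] r [a] (by simp [h2]) (by simp)
    simpa [h1] using this

lemma Emb.walk {β : Type*} {c : β → List α} {u v : List α} (p : (editGraph α).Walk u v) :
    ∀ W : List β, Emb c W u → ∃ W', W' <+ W ∧ W.length ≤ W'.length + p.length ∧ Emb c W' v := by
  induction p with
  | nil => intro W h; exact ⟨W, Sublist.refl _, by simp, h⟩
  | cons hadj p ih =>
    intro W h
    obtain ⟨W1, hs1, hl1, h1⟩ := h.adj hadj
    obtain ⟨W2, hs2, hl2, h2⟩ := ih W1 h1
    exact ⟨W2, hs2.trans hs1, by simp; omega, h2⟩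

/-- A marker code: fixed length, injective, begins with `11`, and no later position begins `11`. -/
structure Code {β : Type*} (c : β → List Bool) (b : ℕ) : Prop where
  len : ∀ a, (c a).length = b
  inj : Function.Injective c
  head : ∀ a, ∃ t, c a = true :: true :: t
  mark : ∀ a (rest : List Bool) (t : ℕ), 0 < t → t < b →
    ¬ ((c a ++ rest)[t]? = some true ∧ (c a ++ rest)[t + 1]? = some true)

lemma Emb.sync {β : Type*} {c : β → List Bool} {b : ℕ} (hc : Code c b) :
    ∀ (X W : List β), Emb c W (X.flatMap c) → W <+ X := by
  intro X
  induction X with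
  | nil =>
    intro W h
    generalize hu : ([] : List β).flatMap c = u at h
    cases h with
    | nil => exact Sublist.refl _
    | cons a W x u h =>
      obtain ⟨t, ht⟩ := hc.head a
      have := congrArg List.length hu
      simp [ht] at this
  | cons e X ih =>
    intro W h
    generalize hu : (e :: X).flatMap c = u at h
    cases h with
    | nil => exact nil_sublist _
    | cons a W x u h =>
      rw [List.flatMap_cons, List.append_assoc] at hu
      rcases List.append_eq_append_iff.1 hu with ⟨a', h1, h2⟩ | ⟨c', h1, h2⟩
      · have : Emb c (a :: W) (X.flatMap c) := by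
          rw [h2, ← List.append_assoc]; exact Emb.cons a W a' u h
        exact (ih _ this).cons e
      · rcases x with _ | ⟨x0, x⟩
        · simp only [List.nil_append] at h1 hu
          have h3 := List.append_inj hu (by rw [hc.len, hc.len])
          have hea : e = a := hc.inj h3.1
          subst hea
          exact (ih W (h3.2 ▸ h)).cons_cons e
        · rcases c' with _ | ⟨c0, c'⟩
          · have : Emb c (a :: W) (X.flatMap c) := by
              simp only [List.nil_append] at h2
              rw [← h2]
              simpa using Emb.cons a W [] u h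
            exact (ih _ this).cons e
          · exfalso
            have hl := congrArg List.length h1
            rw [hc.len] at hl
            obtain ⟨t, ht⟩ := hc.head a
            refine hc.mark e (X.flatMap c) (x0 :: x).length (by simp) (by simp at hl ⊢; omega) ?_
            rw [hu, ht]
            constructor
            · rw [List.getElem?_append_right (le_refl _)]; simp
            · rw [List.getElem?_append_right (Nat.le_succ _)]; simp

lemma le_editDist_code {β : Type*} {c : β → List Bool} {b : ℕ} (hc : Code c b) (X Y : List β)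
    (B : ℕ) (hB : ∀ W, W <+ X → W <+ Y → W.length ≤ B) :
    X.length ≤ B + editDist (X.flatMap c) (Y.flatMap c) := by
  obtain ⟨p, hp⟩ := (reachable_edit (X.flatMap c) (Y.flatMap c)).exists_walk_length_eq_dist
  obtain ⟨W, hs, hl, hE⟩ := Emb.walk p X (Emb.self c X)
  have := hB W hs (Emb.sync hc Y W hE)
  unfold editDist
  omega

lemma length_flatMap_code {β : Type*} {c : β → List Bool} {b : ℕ} (hc : Code c b) (X : List β) :
    (X.flatMap c).length = b * X.length := by
  induction X with
  | nil => simp
  | cons a X ih => rw [List.flatMap_cons, List.length_append, ih, hc.len]; simp; ring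

lemma editDist_code_le {β : Type*} {c : β → List Bool} {b : ℕ} (hc : Code c b) {W X Y : List β}
    (hX : W <+ X) (hY : W <+ Y) :
    editDist (X.flatMap c) (Y.flatMap c) + 2 * (b * W.length) ≤ b * X.length + b * Y.length := by
  have := editDist_le_common (hX.flatMap c) (hY.flatMap c)
  rwa [length_flatMap_code hc, length_flatMap_code hc, length_flatMap_code hc] at this

/-- bit `t` of the marker code of the bit vector `v`. -/
def codeBit (v : ℕ → Bool) (t : ℕ) : Bool :=
  if t ≤ 1 then true else if t % 2 = 0 then false else v ((t - 3) / 2)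

lemma exists_code (β : Type*) [Fintype β] (r : ℕ) (h : Fintype.card β ≤ 2 ^ r) :
    ∃ c : β → List Bool, Code c (2 * r + 3) := by
  classical
  obtain ⟨e⟩ : Nonempty (β ↪ (Fin r → Bool)) :=
    Function.Embedding.nonempty_of_card_le (by simpa using h)
  let v : β → ℕ → Bool := fun a i => if hi : i < r then e a ⟨i, hi⟩ else false
  refine ⟨fun a => (List.range (2 * r + 3)).map (codeBit (v a)), ?_, ?_, ?_, ?_⟩
  · intro a; simp
  · intro a a' haa
    apply e.injective
    funext i
    have h1 := List.map_inj_left.1 haa (2 * i + 3) (by simp)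
    have h2 : ¬ (2 * (i : ℕ) + 3 ≤ 1) := by omega
    have h3 : ¬ ((2 * (i : ℕ) + 3) % 2 = 0) := by omega
    have h4 : (2 * (i : ℕ) + 3 - 3) / 2 = i := by omega
    simpa [codeBit, h2, h3, h4, v] using h1
  · intro a
    refine ⟨(((List.range (2 * r + 1)).map Nat.succ).map Nat.succ).map (codeBit (v a)), ?_⟩
    rw [show 2 * r + 3 = (2 * r + 1 + 1) + 1 by ring, List.range_succ_eq_map,
      List.range_succ_eq_map]
    simp only [List.map_cons]
    rfl
  · intro a rest t ht0 htb ⟨h1, h2⟩
    rcases Nat.mod_two_eq_zero_or_one t with h0 | h0
    · rw [List.getElem?_append_left (by simpa using htb)] at h1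
      have h3 : ¬ (t ≤ 1) := by omega
      simp [htb, codeBit, h3, h0] at h1
    · have hb : t + 1 < 2 * r + 3 := by omega
      rw [List.getElem?_append_left (by simpa using hb)] at h2
      have h3 : ¬ (t + 1 ≤ 1) := by omega
      have h4 : (t + 1) % 2 = 0 := by omega
      simp [hb, codeBit, h3, h4] at h2

end Crest.Agent.R210
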