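import Crest.Agent.R210.Str

/-! The distortion bound in terms of the parameters. -/

set_option autoImplicit false

namespace Crest.Agent.R210

open Finset Crest.GeometryTopology.EditDistance
open scoped List

lemma sum_fiber_le (n M : ℕ) (A : ℕ → Prop) [DecidablePred A] (g : ℕ → ℕ) :
    ∑ y ∈ range M, ((range n).filter fun p => A p ∧ g p = y).card ≤ ((range n).filter A).card := by
  have := Finset.sum_card_fiberwise_eq_card_filter ((range n).filter A) (range M) g
  simp only [Finset.filter_filter] at this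
  rw [this]
  exact Finset.card_le_card fun p hp => by
    simp only [mem_filter] at hp ⊢
    exact ⟨hp.1, hp.2.1⟩

theorem main_bound (k m N L w q b : ℕ) [NeZero (m ^ k)] [NeZero L] (hm : 0 < m) (hN0 : 0 < N)
    (hk : 0 < k) (hw : 1 ≤ w) (hL : ∀ h y, PP m h y ≤ L) (hq : N ≤ 2 ^ q) (hmq : 4 * k * q ≤ m)
    (hN : k * (2 * L ^ w) * w ^ k ≤ N) (c : Alph k m L → List Bool) (hc : Code c b)
    (f : List Bool → lp (fun _ : ℕ => ℝ) 1) (s D : ℝ) (hs : 0 < s)
    (H : ∀ x y : List Bool, x.length = b * (N * m) ^ k → y.length = b * (N * m) ^ k → x ≠ y →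
      s * (editDist x y : ℝ) ≤ ‖f x - f y‖ ∧ ‖f x - f y‖ ≤ D * s * (editDist x y : ℝ)) :
    (w : ℝ) ^ k ≤ 32 * b * D := by
  classical
  set n := (N * m) ^ k with hn
  have hn0 : 0 < n := by positivity
  set X : GG k m → List Bool := fun z => (word k m N L z).flatMap c with hX
  have hlen : ∀ z, (X z).length = b * n := fun z => by
    simp only [hX]; rw [length_flatMap_code hc, length_word]
  have hfar : ∀ z, n ≤ 2 * editDist (X z) (X (z + tt k m k 0)) := by
    intro z
    have := le_editDist_code hc (word k m N L z) (word k m N L (z + tt k m k 0)) (n / 2) (by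
      intro W h1 h2
      have h3 := common_le hm hN0 hL hq z W h1 h2
      rw [← hn] at h3
      have h4 : m * (2 * W.length) ≤ m * n := by
        calc m * (2 * W.length) = 2 * (m * W.length) := by ring
          _ ≤ 2 * (k * (2 * q * n)) := by omega
          _ = (4 * k * q) * n := by ring
          _ ≤ m * n := Nat.mul_le_mul_right _ hmq
      have := Nat.le_of_mul_le_mul_left h4 hm
      omega)
    rw [length_word, ← hn] at this
    simp only [hX]
    omega
  have hne : ∀ z, X z ≠ X (z + tt k m k 0) := by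
    intro z he
    have := hfar z
    rw [← he] at this
    simp [editDist] at this
    omega
  have hD : 0 ≤ D := by
    obtain ⟨h1, h2⟩ := H _ _ (hlen 0) (hlen _) (hne 0)
    have h3 : (0 : ℝ) < editDist (X 0) (X (0 + tt k m k 0)) := by
      have := hfar 0
      exact_mod_cast (by omega : 0 < editDist (X 0) (X (0 + tt k m k 0)))
    have h4 : 0 < s * editDist (X 0) (X (0 + tt k m k 0)) := mul_pos hs h3
    by_contra h5
    have : D * (s * editDist (X 0) (X (0 + tt k m k 0))) < 0 := mul_neg_of_neg_of_pos (not_le.1 h5) h4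
    linarith
  have hup : ∀ z z' (r : ℕ), editDist (X z') (X z) ≤ r → ‖f (X z') - f (X z)‖ ≤ D * s * r := by
    intro z z' r hr
    by_cases he : X z' = X z
    · rw [he, sub_self, norm_zero]; positivity
    · refine (H _ _ (hlen _) (hlen _) he).2.trans ?_
      gcongr
  have hP := tree_poincare k m L w hw (PP m) (tt k m) (fun h y => (PP_prime m h y).pos) hL
    (PP_coprime m) PP_smul_tt (fun z => f (X z))
  set g : ℝ := ((Fintype.card (GG k m) : ℕ) : ℝ) with hg
  have hg0 : 0 < g := by simp only [hg]; exact_mod_cast Fintype.card_pos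
  have hL0 : (0 : ℝ) < L := by exact_mod_cast NeZero.pos L
  have hw0 : (0 : ℝ) < w := by exact_mod_cast hw
  have hk0 : (0 : ℝ) < k := by exact_mod_cast hk
  have hN0' : (0 : ℝ) < N := by exact_mod_cast hN0
  have hn0' : (0 : ℝ) < n := by exact_mod_cast hn0
  set T : ℝ := 2 * (L : ℝ) ^ w with hT
  have hT0 : 0 < T := by positivity
  have hlow : g * (s * n / 2) ≤ ∑ z, ‖f (X (z + tt k m k 0)) - f (X z)‖ := by
    rw [hg, ← Finset.card_univ, ← nsmul_eq_mul]
    refine Finset.card_nsmul_le_sum _ _ _ fun z _ => ?_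
    rw [norm_sub_rev]
    refine le_trans ?_ (H _ _ (hlen _) (hlen _) (hne z)).1
    have : (n : ℝ) ≤ 2 * editDist (X z) (X (z + tt k m k 0)) := by exact_mod_cast hfar z
    nlinarith
  set K : ℝ := g * (D * s * (2 * b)) with hK
  have hK0 : 0 ≤ K := by positivity
  have hsum : ∀ (a : GG k m) (r : ℕ), (∀ z, editDist (X (z + a)) (X z) ≤ 2 * b * r) →
      ∑ z, ‖f (X (z + a)) - f (X z)‖ ≤ K * r := by
    intro a r hr
    refine (Finset.sum_le_card_nsmul _ _ (D * s * ((2 * b * r : ℕ) : ℝ))
      fun z _ => hup _ _ _ (hr z)).trans_eq ?_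
    rw [Finset.card_univ, nsmul_eq_mul, hK]
    push_cast
    ring
  have hleaf : ∑ y ∈ range (m ^ (k - 0)), ∑ s' ∈ range (2 * L ^ w), (4 * wt k w 0 / T) *
      ∑ z, ‖f (X (z + s' • gen (tt k m) m 0 y)) - f (X z)‖ ≤ 4 * K * n / w ^ k := by
    have h1 : ∀ y ∈ range (m ^ (k - 0)), ∑ s' ∈ range (2 * L ^ w), (4 * wt k w 0 / T) *
        ∑ z, ‖f (X (z + s' • gen (tt k m) m 0 y)) - f (X z)‖ ≤
        (4 * K / w ^ k) * ((range n).filter fun p => True ∧ idn k m N 0 p = y).card := by
      intro y _
      refine (Finset.sum_le_card_nsmul _ _ ((4 * wt k w 0 / T) *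
        (K * ((range n).filter fun p => idn k m N 0 p = y).card)) fun s' _ => ?_).trans_eq ?_
      · refine mul_le_mul_of_nonneg_left (hsum _ _ fun z => near_leaf hm hc z s' y) ?_
        simp only [wt]; positivity
      · simp only [card_range, nsmul_eq_mul, wt, true_and]
        push_cast
        rw [← hT]
        field_simp
    refine (Finset.sum_le_sum h1).trans ?_
    rw [← Finset.mul_sum]
    have h2 := sum_fiber_le n (m ^ (k - 0)) (fun _ => True) (idn k m N 0)
    have h3 : ((range n).filter fun _ => True).card = n := by simp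
    rw [h3] at h2
    have h4 : (∑ y ∈ range (m ^ (k - 0)),
        (((range n).filter fun p => True ∧ idn k m N 0 p = y).card : ℝ)) ≤ n := by exact_mod_cast h2
    calc _ ≤ (4 * K / w ^ k) * n := by gcongr
      _ = _ := by ring
  have hnode : ∀ j ∈ range k, ∑ y ∈ range (m ^ (k - (j + 1))), ∑ s' ∈ range (2 * L ^ w),
      (4 * wt k w (j + 1) / T) * ∑ z, ‖f (X (z + s' • gen (tt k m) m (j + 1) y)) - f (X z)‖ ≤
        4 * K * n / (k * w ^ k) := by
    intro j hj
    rw [Finset.sum_comm]
    refine (Finset.sum_le_card_nsmul _ _ ((4 / T) * (K * (n / (k * w ^ k)))) fun s' hs' =>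
      ?_).trans_eq ?_
    · simp only [wt, mul_one]
      rw [← Finset.mul_sum]
      refine mul_le_mul_of_nonneg_left ?_ (by positivity)
      refine (Finset.sum_le_sum fun y _ => hsum _ _ fun z =>
        near_node hm hN0 hc z (mem_range.1 hj) s' y).trans ?_
      rw [← Finset.mul_sum]
      refine mul_le_mul_of_nonneg_left ?_ hK0
      have h2 := sum_fiber_le n (m ^ (k - (j + 1))) (fun p => N ≤ sig m N j p + s')
        (idn k m N (j + 1))
      have h3 := card_overflow (k := k) hm hN0 (mem_range.1 hj) s'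
      rw [← hn] at h3 ⊢
      have h4 : (∑ y ∈ range (m ^ (k - (j + 1))), (((range n).filter fun p =>
          N ≤ sig m N j p + s' ∧ idn k m N (j + 1) p = y).card : ℝ)) ≤
          ((range n).filter fun p => N ≤ sig m N j p + s').card := by exact_mod_cast h2
      refine h4.trans ?_
      have h5 : (N : ℝ) * ((range n).filter fun p => N ≤ sig m N j p + s').card ≤ n * s' := by
        exact_mod_cast h3
      have h6 : (k : ℝ) * T * w ^ k ≤ N := by rw [hT]; exact_mod_cast hN
      have h7 : (s' : ℝ) ≤ T := by rw [hT]; exact_mod_cast (mem_range.1 hs').le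
      rw [le_div_iff₀ (by positivity)]
      set C : ℝ := ((((range n).filter fun p => N ≤ sig m N j p + s').card : ℕ) : ℝ) with hC
      have hC0 : 0 ≤ C := by positivity
      have h8 : T * (C * (k * w ^ k)) ≤ T * n := by
        calc T * (C * (k * w ^ k)) = (k * T * w ^ k) * C := by ring
          _ ≤ N * C := by gcongr
          _ ≤ n * s' := h5
          _ ≤ n * T := by gcongr
          _ = T * n := by ring
      exact le_of_mul_le_mul_left h8 hT0
    · simp only [card_range, nsmul_eq_mul]
      push_cast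
      rw [← hT]
      field_simp
  rw [Finset.sum_range_succ'] at hP
  have h9 := (Finset.sum_le_card_nsmul _ _ _ hnode)
  rw [card_range, nsmul_eq_mul] at h9
  have h10 : (k : ℝ) * (4 * K * n / (k * w ^ k)) = 4 * K * n / w ^ k := by field_simp
  have h11 : g * (s * n / 2) ≤ 8 * K * n / w ^ k := by
    have : 8 * K * n / w ^ k = 4 * K * n / w ^ k + 4 * K * n / w ^ k := by ring
    linarith
  rw [le_div_iff₀ (by positivity), hK] at h11
  have h12 : (g * s * n) * (w : ℝ) ^ k ≤ (g * s * n) * (32 * b * D) := by linarith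
  exact le_of_mul_le_mul_left h12 (by positivity)

end Crest.Agent.R210
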