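import Crest.Agent.R210.Main

/-! Choice of parameters. -/

set_option autoImplicit false

namespace Crest.Agent.R210

open Finset Crest.GeometryTopology.EditDistance

lemma two_pow_ge (a : ℕ) (ha : 8 ≤ a) : 32 * a ≤ 2 ^ a := by
  induction a, ha using Nat.le_induction with
  | base => norm_num
  | succ a ha ih => rw [pow_succ]; omega

lemma nth_prime_le (e : ℕ) (he : 8 ≤ e) (i : ℕ) (hi : i < 2 ^ e) :
    Nat.nth Nat.Prime i ≤ 2 ^ (2 * e) := by
  have h1 := Chebyshev.pi_ge (2 ^ (2 * e))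
  have h2 := two_pow_ge e he
  have hl : 0 < Real.log 2 := Real.log_pos one_lt_two
  have he' : (8 : ℝ) ≤ e := by exact_mod_cast he
  have h2' : 32 * (e : ℝ) ≤ 2 ^ e := by exact_mod_cast h2
  have h3 : Real.log ((2 ^ (2 * e) : ℕ) : ℝ) = 2 * e * Real.log 2 := by
    push_cast; rw [Real.log_pow]; push_cast; ring
  have h4 : Real.log (((2 ^ (2 * e) : ℕ) : ℝ) + 1) ≤ (2 * e + 1) * Real.log 2 := by
    have : Real.log ((2 : ℝ) ^ (2 * e + 1)) = (2 * e + 1) * Real.log 2 := by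
      rw [Real.log_pow]; push_cast; ring
    rw [← this]
    apply Real.log_le_log (by positivity)
    push_cast
    have : (1 : ℝ) ≤ 2 ^ (2 * e) := one_le_pow₀ (by norm_num)
    rw [pow_succ]; linarith
  have h5 : ((2 ^ e : ℕ) : ℝ) ≤ (Nat.primeCounting (2 ^ (2 * e)) : ℝ) := by
    refine le_trans ?_ h1
    rw [h3, le_div_iff₀ (by positivity)]
    have h6 : ((2 ^ (2 * e) : ℕ) : ℝ) = 2 ^ e * 2 ^ e := by push_cast; ring
    rw [h6] at h4 ⊢
    push_cast
    set x : ℝ := 2 ^ e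
    have h7 : x * (2 * e) + (2 * e + 1) ≤ x * x := by nlinarith
    nlinarith
  have h8 : i < Nat.count Nat.Prime (2 ^ (2 * e) + 1) := by
    have : 2 ^ e ≤ Nat.primeCounting (2 ^ (2 * e)) := by exact_mod_cast h5
    exact lt_of_lt_of_le hi this
  exact Nat.lt_succ_iff.1 (Nat.nth_lt_of_lt_count h8)

lemma exists_length (a : ℕ) (ha : 8 ≤ a) : ∃ n : ℕ, n ≤ 2 ^ (11 * a * (2 ^ a) ^ 2) ∧
    ∀ (f : List Bool → lp (fun _ : ℕ => ℝ) 1) (s D : ℝ), 0 < s →
      (∀ x y : List Bool, x.length = n → y.length = n → x ≠ y →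
        s * (editDist x y : ℝ) ≤ ‖f x - f y‖ ∧ ‖f x - f y‖ ≤ D * s * (editDist x y : ℝ)) →
      (2 : ℝ) ^ (a * (2 ^ a - 3)) ≤ D := by
  obtain ⟨K, hK⟩ : ∃ K, K = 2 ^ a := ⟨_, rfl⟩
  have hKa : 32 * a ≤ K := hK ▸ two_pow_ge a ha
  rw [← hK]
  set q := a + 1 + (9 * a + 2) * K with hq
  set r := 4 * a * K + (8 * a + 2) * (K + 1) with hr
  have : NeZero ((2 ^ (4 * a)) ^ K) := ⟨by positivity⟩
  have : NeZero (2 ^ (8 * a + 2)) := ⟨by positivity⟩
  obtain ⟨c, hc⟩ := exists_code (Alph K (2 ^ (4 * a)) (2 ^ (8 * a + 2))) r (by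
    simp only [Fintype.card_prod, Fintype.card_fin, Fintype.card_fun]
    rw [← pow_mul, ← pow_mul, ← pow_add])
  have hb : 2 * r + 3 ≤ 7 * K ^ 2 := by
    have : r ≤ K * K + K * (K + 1) := by
      rw [hr]
      exact Nat.add_le_add (Nat.mul_le_mul_right _ (by omega)) (Nat.mul_le_mul_right _ (by omega))
    nlinarith
  refine ⟨(2 * r + 3) * (2 ^ q * 2 ^ (4 * a)) ^ K, ?_, ?_⟩
  · have h1 : 2 * r + 3 ≤ 2 ^ (a * K ^ 2) := by
      refine hb.trans ?_
      calc 7 * K ^ 2 ≤ 8 * K ^ 2 := by omega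
        _ = 2 ^ (2 * a + 3) := by rw [hK]; ring
        _ ≤ 2 ^ (a * K ^ 2) := Nat.pow_le_pow_right (by norm_num) (by nlinarith)
    have h2 : (q + 4 * a) * K ≤ 10 * a * K ^ 2 := by
      have : q + 4 * a ≤ 10 * a * K := by rw [hq]; nlinarith
      nlinarith
    rw [← pow_add, ← pow_mul]
    calc _ ≤ 2 ^ (a * K ^ 2) * 2 ^ (10 * a * K ^ 2) :=
          Nat.mul_le_mul h1 (Nat.pow_le_pow_right (by norm_num) h2)
      _ = _ := by rw [← pow_add]; congr 1; ring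
  · intro f s D hs H
    have hmain := main_bound K (2 ^ (4 * a)) (2 ^ q) (2 ^ (8 * a + 2)) K q (2 * r + 3)
      (by positivity) (by positivity) (by omega) (by omega) ?_ le_rfl ?_ ?_ c hc f s D hs H
    · have hK0 : (256 : ℝ) ≤ K := by exact_mod_cast (by omega : 256 ≤ K)
      have hb' : ((2 * r + 3 : ℕ) : ℝ) ≤ 7 * (K : ℝ) ^ 2 := by exact_mod_cast hb
      have hb0 : (0 : ℝ) < ((2 * r + 3 : ℕ) : ℝ) := by positivity
      have hKK : (0 : ℝ) < (K : ℝ) ^ K := by positivity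
      have hD : 0 < D := by
        by_contra h
        have : 32 * ((2 * r + 3 : ℕ) : ℝ) * D ≤ 0 :=
          mul_nonpos_of_nonneg_of_nonpos (by positivity) (not_lt.1 h)
        linarith
      have h3 : (2 : ℝ) ^ (a * (K - 3)) = (K : ℝ) ^ (K - 3) := by
        rw [pow_mul]; congr 1; rw [hK]; push_cast; rfl
      have h4 : (K : ℝ) ^ K = (K : ℝ) ^ 3 * (K : ℝ) ^ (K - 3) := by
        rw [← pow_add]; congr 1; omega
      rw [h3]
      have h5 : 32 * ((2 * r + 3 : ℕ) : ℝ) ≤ (K : ℝ) ^ 3 := by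
        have : (0 : ℝ) ≤ (K : ℝ) ^ 2 := by positivity
        nlinarith
      have h6 : (K : ℝ) ^ 3 * (K : ℝ) ^ (K - 3) ≤ (K : ℝ) ^ 3 * D := by
        rw [← h4]
        exact hmain.trans (mul_le_mul_of_nonneg_right h5 hD.le)
      exact le_of_mul_le_mul_left h6 (by positivity)
    · intro h y
      have h1 := nth_prime_le (4 * a + 1) (by omega) (2 * (y % 2 ^ (4 * a)) + h % 2) (by
        have := Nat.mod_lt y (show 0 < 2 ^ (4 * a) by positivity)
        rw [pow_succ]; omega)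
      rw [show 2 * (4 * a + 1) = 8 * a + 2 by ring] at h1
      exact h1
    · have h1 : 2 ^ (4 * a) = K ^ 4 := by rw [hK]; ring
      have h2 : q ≤ 2 * K ^ 2 := by rw [hq]; nlinarith
      rw [h1]
      calc 4 * K * q ≤ 4 * K * (2 * K ^ 2) := Nat.mul_le_mul_left _ h2
        _ = 8 * K ^ 3 := by ring
        _ ≤ K * K ^ 3 := Nat.mul_le_mul_right _ (by omega)
        _ = K ^ 4 := by ring
    · apply le_of_eq
      have h1 : K ^ K = 2 ^ (a * K) := by rw [pow_mul, ← hK]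
      rw [h1, ← pow_mul, hq]
      nth_rewrite 1 [hK]
      ring

lemma exists_scale (φ : ℕ → ℕ) (hφ : ∀ a, a ≤ φ a) (a₀ d : ℕ) (hd : φ a₀ ≤ d) :
    ∃ a, a₀ ≤ a ∧ φ a ≤ d ∧ d < φ (a + 1) := by
  classical
  have hex : ∃ j, d < φ (a₀ + j + 1) := ⟨d, by have := hφ (a₀ + d + 1); omega⟩
  have h1 := Nat.find_spec hex
  have h2 := fun j => Nat.find_min hex (m := j)
  generalize Nat.find hex = j at h1 h2
  refine ⟨a₀ + j, by omega, ?_, h1⟩
  cases j with
  | zero => exact hd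
  | succ j => exact not_lt.1 (h2 j (by omega))

lemma exp_le_two_pow (a d : ℕ) (ha : 8 ≤ a) (hd0 : 3 ≤ d)
    (hd : d < 2 ^ (11 * (a + 1) * (2 ^ (a + 1)) ^ 2)) :
    Real.exp (1 / 30 * Real.sqrt (Real.log d * Real.log (Real.log d))) ≤
      (2 : ℝ) ^ (a * (2 ^ a - 3)) := by
  obtain ⟨K, hK⟩ : ∃ K, K = 2 ^ a := ⟨_, rfl⟩
  have hKa : 32 * a ≤ K := hK ▸ two_pow_ge a ha
  rw [pow_succ 2 a, ← hK] at hd
  rw [← hK]
  have hl : 0 < Real.log 2 := Real.log_pos one_lt_two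
  have hl1 : Real.log 2 < 1 := Real.log_two_lt_d9.trans (by norm_num)
  have ha' : (8 : ℝ) ≤ a := by exact_mod_cast ha
  have hKa' : 32 * (a : ℝ) ≤ K := by exact_mod_cast hKa
  have hd1 : (1 : ℝ) < d := by exact_mod_cast (by omega : 1 < d)
  have hld : 0 < Real.log d := Real.log_pos hd1
  have h1 : Real.log d ≤ 50 * a * K ^ 2 * Real.log 2 := by
    have h2 : (d : ℝ) ≤ 2 ^ (50 * a * K ^ 2) := by
      have : d ≤ 2 ^ (50 * a * K ^ 2) :=
        hd.le.trans (Nat.pow_le_pow_right (by norm_num) (by nlinarith))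
      exact_mod_cast this
    have := Real.log_le_log (by positivity) h2
    rw [Real.log_pow] at this
    exact_mod_cast this
  have h3 : Real.log (Real.log d) ≤ 4 * a * Real.log 2 := by
    have h4 : Real.log d ≤ (2 : ℝ) ^ (4 * a) := by
      have h5 : (2 : ℝ) ^ (4 * a) = (K : ℝ) ^ 2 * (K : ℝ) ^ 2 := by rw [hK]; push_cast; ring
      rw [h5]
      have h6 : 50 * (a : ℝ) ≤ (K : ℝ) ^ 2 := by nlinarith
      have h7 : 50 * (a : ℝ) * K ^ 2 * Real.log 2 ≤ 50 * a * K ^ 2 :=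
        mul_le_of_le_one_right (by positivity) hl1.le
      have h8 : 50 * (a : ℝ) * K ^ 2 ≤ (K : ℝ) ^ 2 * (K : ℝ) ^ 2 := by gcongr
      linarith
    have := Real.log_le_log hld h4
    rw [Real.log_pow] at this
    exact_mod_cast this
  have h9 : Real.sqrt (Real.log d * Real.log (Real.log d)) ≤ 15 * a * K * Real.log 2 := by
    rw [Real.sqrt_le_iff]
    refine ⟨by positivity, ?_⟩
    calc Real.log d * Real.log (Real.log d) ≤ Real.log d * (4 * a * Real.log 2) := by gcongr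
      _ ≤ (50 * a * K ^ 2 * Real.log 2) * (4 * a * Real.log 2) := by gcongr
      _ = 200 * (a * K * Real.log 2) ^ 2 := by ring
      _ ≤ 225 * (a * K * Real.log 2) ^ 2 := by gcongr; norm_num
      _ = _ := by ring
  have h10 : (2 : ℝ) ^ (a * (K - 3)) = Real.exp (a * (K - 3) * Real.log 2) := by
    rw [← Real.exp_log (show (0 : ℝ) < 2 ^ (a * (K - 3)) by positivity), Real.log_pow]
    congr 2
    push_cast [Nat.cast_sub (by omega : 3 ≤ K)]
    ring
  rw [h10]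
  apply Real.exp_le_exp.2
  have h11 : (a : ℝ) * K / 2 ≤ a * (K - 3) := by nlinarith
  nlinarith

theorem final :
    ∃ c : ℝ, 0 < c ∧ ∃ d₀ : ℕ, ∀ d : ℕ, d₀ ≤ d → ∃ n : ℕ, n ≤ d ∧
      ∀ (f : List Bool → lp (fun _ : ℕ => ℝ) 1) (s D : ℝ), 0 < s →
        (∀ x y : List Bool, x.length = n → y.length = n → x ≠ y →
          s * (editDist x y : ℝ) ≤ ‖f x - f y‖ ∧ ‖f x - f y‖ ≤ D * s * (editDist x y : ℝ)) →
        Real.exp (c * Real.sqrt (Real.log d * Real.log (Real.log d))) ≤ D := by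
  obtain ⟨φ, hφ⟩ : ∃ φ : ℕ → ℕ, ∀ a, φ a = 2 ^ (11 * a * (2 ^ a) ^ 2) := ⟨_, fun _ => rfl⟩
  have h1 : ∀ a, a ≤ φ a := by
    intro a
    rw [hφ]
    refine le_trans ?_ Nat.lt_two_pow_self.le
    have : 0 < (2 ^ a) ^ 2 := by positivity
    nlinarith
  refine ⟨1 / 30, by norm_num, φ 8, fun d hd => ?_⟩
  obtain ⟨a, ha, h2, h3⟩ := exists_scale φ h1 8 d hd
  obtain ⟨n, hn, H⟩ := exists_length a ha
  rw [← hφ] at hn
  refine ⟨n, hn.trans h2, fun f s D hs hf => le_trans ?_ (H f s D hs hf)⟩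
  rw [hφ] at h3
  exact exp_le_two_pow a d ha (by have := h1 8; omega) h3

end Crest.Agent.R210
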