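import Mathlib

/-! From a character-by-character inequality to an `ℓ¹` Poincaré inequality on a finite abelian
group. -/

set_option autoImplicit false

namespace Crest.Agent.R210

open Finset MeasureTheory
open scoped ComplexConjugate

variable {G : Type*} [AddCommGroup G] [Fintype G]

lemma sum_char_mul_conj (ψ χ : AddChar G ℂ) :
    ∑ z, ψ z * conj (χ z) = if ψ = χ then (Fintype.card G : ℂ) else 0 := by
  classical
  have h := AddChar.sum_eq_ite (ψ - χ)
  simp only [sub_eq_zero] at h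
  rw [← h]
  refine Finset.sum_congr rfl fun z _ => ?_
  rw [AddChar.sub_apply, AddChar.map_neg_eq_conj]

lemma parseval (d : AddChar G ℂ → ℂ) :
    ∑ z, ‖∑ ψ, d ψ * ψ z‖ ^ 2 = Fintype.card G * ∑ ψ, ‖d ψ‖ ^ 2 := by
  classical
  apply Complex.ofReal_injective
  push_cast
  have h1 : ∀ z, ((‖∑ ψ, d ψ * ψ z‖ : ℝ) : ℂ) ^ 2 =
      ∑ ψ, ∑ χ, (d ψ * conj (d χ)) * (ψ z * conj (χ z)) := by
    intro z
    rw [← Complex.mul_conj', map_sum, Finset.sum_mul_sum]
    refine Finset.sum_congr rfl fun ψ _ => Finset.sum_congr rfl fun χ _ => ?_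
    rw [map_mul]; ring
  simp_rw [h1]
  rw [Finset.sum_comm, Finset.mul_sum]
  refine Finset.sum_congr rfl fun ψ _ => ?_
  rw [Finset.sum_comm]
  simp_rw [← Finset.mul_sum, sum_char_mul_conj]
  rw [Finset.sum_eq_single ψ]
  · rw [if_pos rfl, Complex.mul_conj']; ring
  · intro χ _ h; rw [if_neg (Ne.symm h), mul_zero]
  · intro h; exact absurd (Finset.mem_univ _) h

lemma sum_shift_sq (u : G → ℂ) (a : G) :
    ∑ z, ‖u (z + a) - u z‖ ^ 2 =
      Fintype.card G * ∑ ψ, ‖(AddChar.complexBasis G).repr u ψ‖ ^ 2 * ‖ψ a - 1‖ ^ 2 := by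
  have h : ∀ z, u z = ∑ ψ, (AddChar.complexBasis G).repr u ψ * ψ z := by
    intro z
    have := congr_fun ((AddChar.complexBasis G).sum_repr u) z
    simpa using this.symm
  have h2 := parseval (fun ψ : AddChar G ℂ => (AddChar.complexBasis G).repr u ψ * (ψ a - 1))
  simp only [norm_mul, mul_pow] at h2
  rw [← h2]
  refine Finset.sum_congr rfl fun z _ => ?_
  rw [h (z + a), h z, ← Finset.sum_sub_distrib]
  congr 2
  refine Finset.sum_congr rfl fun ψ _ => ?_
  rw [AddChar.map_add_eq_mul]; ring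

variable {ι : Type*} (I : Finset ι) (c : ι → ℝ) (a : ι → G) (a₀ : G)

lemma poincare_l2 (h : ∀ ψ : AddChar G ℂ, ‖ψ a₀ - 1‖ ^ 2 ≤ ∑ i ∈ I, c i * ‖ψ (a i) - 1‖ ^ 2)
    (u : G → ℝ) :
    ∑ z, (u (z + a₀) - u z) ^ 2 ≤ ∑ i ∈ I, c i * ∑ z, (u (z + a i) - u z) ^ 2 := by
  have key : ∀ b : G, ∑ z, (u (z + b) - u z) ^ 2 = Fintype.card G *
      ∑ ψ, ‖(AddChar.complexBasis G).repr (fun z => (u z : ℂ)) ψ‖ ^ 2 * ‖ψ b - 1‖ ^ 2 := by
    intro b
    rw [← sum_shift_sq]
    refine Finset.sum_congr rfl fun z _ => ?_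
    rw [← Complex.ofReal_sub, Complex.norm_real, Real.norm_eq_abs, sq_abs]
  simp_rw [key]
  set d : AddChar G ℂ → ℝ := fun ψ => ‖(AddChar.complexBasis G).repr (fun z => (u z : ℂ)) ψ‖ ^ 2
    with hd
  have hd0 : ∀ ψ, 0 ≤ d ψ := fun ψ => by positivity
  calc (Fintype.card G : ℝ) * ∑ ψ, d ψ * ‖ψ a₀ - 1‖ ^ 2
      ≤ Fintype.card G * ∑ ψ, d ψ * ∑ i ∈ I, c i * ‖ψ (a i) - 1‖ ^ 2 := by
        gcongr with ψ _
        exact h ψ
    _ = ∑ i ∈ I, c i * (Fintype.card G * ∑ ψ, d ψ * ‖ψ (a i) - 1‖ ^ 2) := by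
        simp_rw [Finset.mul_sum]
        rw [Finset.sum_comm]
        refine Finset.sum_congr rfl fun i _ => Finset.sum_congr rfl fun ψ _ => by ring

/-- step function -/
noncomputable def step (x t : ℝ) : ℝ := if t < x then 1 else 0

lemma step_sq (x y t : ℝ) :
    (step x t - step y t) ^ 2 = (Set.Ico (min x y) (max x y)).indicator 1 t := by
  unfold step
  by_cases h1 : t < x <;> by_cases h2 : t < y <;>
    simp [Set.indicator, not_lt.1, not_le.2, *]

lemma integrable_step_sq (x y : ℝ) : Integrable (fun t => (step x t - step y t) ^ 2) := by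
  simp_rw [step_sq]
  exact (integrable_indicator_iff measurableSet_Ico).2 (integrableOn_const (by simp))

lemma integral_step_sq (x y : ℝ) : ∫ t, (step x t - step y t) ^ 2 = |x - y| := by
  simp_rw [step_sq]
  rw [integral_indicator_one measurableSet_Ico, Real.volume_real_Ico_of_le min_le_max,
    max_sub_min_eq_abs', ]

lemma poincare_abs (h : ∀ ψ : AddChar G ℂ, ‖ψ a₀ - 1‖ ^ 2 ≤ ∑ i ∈ I, c i * ‖ψ (a i) - 1‖ ^ 2)
    (u : G → ℝ) :
    ∑ z, |u (z + a₀) - u z| ≤ ∑ i ∈ I, c i * ∑ z, |u (z + a i) - u z| := by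
  have key : ∀ b : G, ∑ z, |u (z + b) - u z| =
      ∫ t, ∑ z, (step (u (z + b)) t - step (u z) t) ^ 2 := by
    intro b
    rw [integral_finsetSum _ fun z _ => integrable_step_sq _ _]
    simp_rw [integral_step_sq]
  have hint : ∀ b : G, Integrable fun t => ∑ z, (step (u (z + b)) t - step (u z) t) ^ 2 :=
    fun b => integrable_finsetSum _ fun z _ => integrable_step_sq _ _
  simp_rw [key, ← integral_const_mul]
  rw [← integral_finsetSum _ fun i _ => (hint (a i)).const_mul _]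
  refine integral_mono (hint a₀) (integrable_finsetSum _ fun i _ => (hint (a i)).const_mul _) ?_
  intro t
  exact poincare_l2 I c a a₀ h fun z => step (u z) t

theorem poincare_l1 (h : ∀ ψ : AddChar G ℂ, ‖ψ a₀ - 1‖ ^ 2 ≤ ∑ i ∈ I, c i * ‖ψ (a i) - 1‖ ^ 2)
    (F : G → lp (fun _ : ℕ => ℝ) 1) :
    ∑ z, ‖F (z + a₀) - F z‖ ≤ ∑ i ∈ I, c i * ∑ z, ‖F (z + a i) - F z‖ := by
  have key : ∀ b : G, HasSum (fun j => ∑ z, |F (z + b) j - F z j|) (∑ z, ‖F (z + b) - F z‖) := by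
    intro b
    refine hasSum_sum fun z _ => ?_
    have := lp.hasSum_norm (p := 1) (by simp) (F (z + b) - F z)
    simpa using this
  refine hasSum_le (fun j => poincare_abs I c a a₀ h fun z => F z j) (key a₀) ?_
  exact hasSum_sum fun i _ => (key (a i)).mul_left _

/-- A nontrivial root of unity of small order is far from `1` on average over its powers. -/
lemma avg_pow_ge (ζ : ℂ) (hζ : ζ ≠ 1) (n T₀ : ℕ) (hn : 0 < n) (hpow : ζ ^ n = 1) (hT : n ≤ T₀) :
    (2 * T₀ : ℝ) ≤ ∑ s ∈ range (2 * T₀), ‖ζ ^ s - 1‖ ^ 2 := by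
  have hnorm : ‖ζ‖ = 1 := Complex.norm_eq_one_of_pow_eq_one hpow hn.ne'
  have h1 : ∀ s : ℕ, ‖ζ ^ s - 1‖ ^ 2 = 2 - 2 * (ζ ^ s).re := by
    intro s
    have h2 : ‖ζ ^ s‖ = 1 := by rw [norm_pow, hnorm, one_pow]
    have h3 := Complex.sq_norm (ζ ^ s)
    rw [h2, Complex.normSq_apply] at h3
    rw [Complex.sq_norm, Complex.normSq_apply]
    simp only [Complex.sub_re, Complex.one_re, Complex.sub_im, Complex.one_im]
    nlinarith
  simp_rw [h1]
  rw [Finset.sum_sub_distrib, ← Finset.mul_sum, ← Complex.re_sum]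
  have h4 : ∑ s ∈ range (2 * T₀), ζ ^ s = ∑ s ∈ range ((2 * T₀) % n), ζ ^ s := by
    rw [geom_sum_eq hζ, geom_sum_eq hζ]
    congr 2
    conv_lhs => rw [← Nat.div_add_mod (2 * T₀) n, pow_add, pow_mul, hpow, one_pow, one_mul]
  have h5 : (∑ s ∈ range ((2 * T₀) % n), ζ ^ s).re ≤ T₀ := by
    refine (Complex.re_le_norm _).trans ((norm_sum_le _ _).trans ?_)
    simp only [norm_pow, hnorm, one_pow, sum_const, card_range, nsmul_eq_mul, mul_one]
    exact_mod_cast ((Nat.mod_lt _ hn).le.trans hT)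
  rw [h4]
  simp only [sum_const, card_range, nsmul_eq_mul]
  push_cast
  linarith

end Crest.Agent.R210
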