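import Crest.Agent.R210.Poincare

/-! The tree Poincaré inequality. -/

set_option autoImplicit false

namespace Crest.Agent.R210

open Finset

lemma sum_range_mul' {M : Type*} [AddCommMonoid M] (f : ℕ → M) (m : ℕ) (A : ℕ) :
    ∑ j ∈ range (A * m), f j = ∑ y ∈ range A, ∑ i ∈ range m, f (y * m + i) := by
  induction A with
  | zero => simp
  | succ A ih => rw [Nat.succ_mul, Finset.sum_range_add, ih, Finset.sum_range_succ]

lemma root_prod (a : ℂ) (b : ℕ → ℂ) (m L w P : ℕ) (Pc : ℕ → ℕ) (ha : a ≠ 1) (hP0 : 0 < P)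
    (hPL : P ≤ L) (haP : a ^ P = 1) (hPc0 : ∀ i, 0 < Pc i) (hPcL : ∀ i, Pc i ≤ L)
    (hb : ∀ i, b i ^ Pc i = 1) (hcop : ∀ i, Nat.Coprime P (Pc i))
    (hw : ((range m).filter fun i => b i ≠ 1).card < w) :
    a * ∏ i ∈ range m, b i ≠ 1 ∧
      ∃ n, 0 < n ∧ (a * ∏ i ∈ range m, b i) ^ n = 1 ∧ n ≤ L ^ w := by
  classical
  set J := (range m).filter fun i => b i ≠ 1 with hJ
  have h1 : ∏ i ∈ range m, b i = ∏ i ∈ J, b i := (Finset.prod_filter_ne_one _).symm
  set S := ∏ i ∈ J, Pc i with hS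
  have h2 : (∏ i ∈ J, b i) ^ S = 1 := by
    rw [← Finset.prod_pow]
    refine Finset.prod_eq_one fun i hi => ?_
    obtain ⟨c, hc⟩ : Pc i ∣ S := Finset.dvd_prod_of_mem _ hi
    rw [hc, pow_mul, hb, one_pow]
  have hS0 : 0 < S := Finset.prod_pos fun i _ => hPc0 i
  have hcS : Nat.Coprime P S := Nat.Coprime.prod_right fun i _ => hcop i
  rw [h1]
  refine ⟨fun h => ha ?_, P * S, Nat.mul_pos hP0 hS0, ?_, ?_⟩
  · have h3 : a ^ S = 1 := by
      have := congrArg (· ^ S) h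
      simpa [mul_pow, h2] using this
    have := pow_gcd_eq_one.2 ⟨haP, h3⟩
    rwa [hcS, pow_one] at this
  · rw [mul_pow, pow_mul, haP, one_pow, one_mul, mul_comm P, pow_mul, h2, one_pow]
  · have h4 : S ≤ L ^ J.card := Finset.prod_le_pow_card _ _ _ fun i _ => hPcL i
    calc P * S ≤ L * L ^ J.card := Nat.mul_le_mul hPL h4
      _ = L ^ (J.card + 1) := by ring
      _ ≤ L ^ w := Nat.pow_le_pow_right (by omega) hw

variable {G : Type*} [AddCommGroup G]

/-- The shift attached to the node `(h, y)`. -/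
def gen (t : ℕ → ℕ → G) (m : ℕ) : ℕ → ℕ → G
  | 0, y => t 0 y
  | h + 1, y => t (h + 1) y + ∑ i ∈ range m, t h (y * m + i)

/-- Weight of level `h`. -/
noncomputable def wt (k w : ℕ) : ℕ → ℝ
  | 0 => ((w : ℝ) ^ k)⁻¹
  | _ + 1 => 1

lemma addChar_sum (ψ : AddChar G ℂ) (f : ℕ → G) (m : ℕ) :
    ψ (∑ i ∈ range m, f i) = ∏ i ∈ range m, ψ (f i) := by
  induction m with
  | zero => simp
  | succ m ih => rw [sum_range_succ, prod_range_succ, AddChar.map_add_eq_mul, ih]

lemma tree_char [Finite G] (k m L w : ℕ) (hw : 1 ≤ w) (P : ℕ → ℕ → ℕ) (t : ℕ → ℕ → G)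
    (hP0 : ∀ h y, 0 < P h y) (hPL : ∀ h y, P h y ≤ L)
    (hcop : ∀ h y y', Nat.Coprime (P (h + 1) y) (P h y')) (ht : ∀ h y, P h y • t h y = 0)
    (ψ : AddChar G ℂ) :
    ‖ψ (t k 0) - 1‖ ^ 2 ≤ ∑ h ∈ range (k + 1), ∑ y ∈ range (m ^ (k - h)),
      ∑ s ∈ range (2 * L ^ w), (4 * wt k w h / (2 * L ^ w)) * ‖ψ (s • gen t m h y) - 1‖ ^ 2 := by
  classical
  have hL : 0 < L := lt_of_lt_of_le (hP0 0 0) (hPL 0 0)
  have hT : (0 : ℝ) < 2 * (L : ℝ) ^ w := by positivity
  have hw0 : (0 : ℝ) < w := by exact_mod_cast hw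
  have hw1 : (1 : ℝ) ≤ w := by exact_mod_cast hw
  set E : ℕ → ℕ → ℝ := fun h y =>
    (∑ s ∈ range (2 * L ^ w), ‖ψ (s • gen t m h y) - 1‖ ^ 2) / (2 * L ^ w) with hE
  have hE0 : ∀ h y, 0 ≤ E h y := fun h y => by positivity
  set ch : ℕ → ℕ → ℝ := fun h y => if ψ (t h y) ≠ 1 then 1 else 0 with hch
  have hch0 : ∀ h y, 0 ≤ ch h y := fun h y => by simp only [hch]; split_ifs <;> norm_num
  have hpow : ∀ h y, ψ (t h y) ^ P h y = 1 := fun h y => by
    rw [← AddChar.map_nsmul_eq_pow, ht, AddChar.map_zero_eq_one]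
  have hone : ∀ h y, ψ (gen t m h y) ≠ 1 → (∃ n, 0 < n ∧ ψ (gen t m h y) ^ n = 1 ∧ n ≤ L ^ w) →
      1 ≤ E h y := by
    rintro h y h1 ⟨n, hn, h2, h3⟩
    have := avg_pow_ge _ h1 n (L ^ w) hn h2 h3
    simp only [hE, AddChar.map_nsmul_eq_pow]
    rw [le_div_iff₀ hT, one_mul]
    exact_mod_cast this
  have hleaf : ∀ y, ch 0 y ≤ E 0 y := by
    intro y
    simp only [hch]
    split_ifs with h
    · refine hone 0 y h ⟨P 0 y, hP0 0 y, hpow 0 y, (hPL 0 y).trans ?_⟩
      exact Nat.le_self_pow (by omega) _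
    · exact hE0 0 y
  have hnode : ∀ h y, ch (h + 1) y ≤ E (h + 1) y + (∑ i ∈ range m, ch h (y * m + i)) / w := by
    intro h y
    have hs0 : 0 ≤ (∑ i ∈ range m, ch h (y * m + i)) / w :=
      div_nonneg (Finset.sum_nonneg fun i _ => hch0 _ _) hw0.le
    by_cases h1 : ψ (t (h + 1) y) ≠ 1
    · have e1 : ch (h + 1) y = 1 := by simp only [hch]; rw [if_pos h1]
      rw [e1]
      by_cases h2 : ((range m).filter fun i => ψ (t h (y * m + i)) ≠ 1).card < w
      · have := root_prod _ (fun i => ψ (t h (y * m + i))) m L w _ (fun i => P h (y * m + i)) h1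
          (hP0 _ _) (hPL _ _) (hpow _ _) (fun i => hP0 _ _) (fun i => hPL _ _)
          (fun i => hpow _ _) (fun i => hcop _ _ _) h2
        have e2 : ψ (gen t m (h + 1) y) = ψ (t (h + 1) y) * ∏ i ∈ range m, ψ (t h (y * m + i)) := by
          rw [gen, AddChar.map_add_eq_mul, addChar_sum]
        rw [← e2] at this
        have := hone _ _ this.1 this.2
        linarith
      · have e3 : ∑ i ∈ range m, ch h (y * m + i) =
            ((range m).filter fun i => ψ (t h (y * m + i)) ≠ 1).card := by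
          simp only [hch]
          rw [Finset.sum_boole]
        have : (1 : ℝ) ≤ (∑ i ∈ range m, ch h (y * m + i)) / w := by
          rw [le_div_iff₀ hw0, one_mul, e3]
          exact_mod_cast not_lt.1 h2
        linarith [hE0 (h + 1) y]
    · have e1 : ch (h + 1) y = 0 := by simp only [hch]; rw [if_neg h1]
      rw [e1]
      linarith [hE0 (h + 1) y]
  set S : ℕ → ℝ := fun h => ∑ y ∈ range (m ^ (k - h)), E h y with hS
  have hS0 : ∀ h, 0 ≤ S h := fun h => Finset.sum_nonneg fun y _ => hE0 _ _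
  have hind : ∀ h, h ≤ k → ∑ y ∈ range (m ^ (k - h)), ch h y ≤
      ((w : ℝ) ^ h)⁻¹ * S 0 + ∑ j ∈ range h, S (j + 1) := by
    intro h
    induction h with
    | zero =>
      intro _
      rw [pow_zero, inv_one, one_mul, Finset.sum_range_zero, add_zero]
      exact Finset.sum_le_sum fun y _ => hleaf y
    | succ h ih =>
      intro hk
      have ih' := ih (by omega)
      have e1 : m ^ (k - h) = m ^ (k - (h + 1)) * m := by
        rw [← pow_succ]; congr 1; omega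
      rw [e1, sum_range_mul'] at ih'
      have h1 : ∑ y ∈ range (m ^ (k - (h + 1))), ch (h + 1) y ≤ S (h + 1) +
          (∑ y ∈ range (m ^ (k - (h + 1))), ∑ i ∈ range m, ch h (y * m + i)) / w := by
        rw [Finset.sum_div, hS, ← Finset.sum_add_distrib]
        exact Finset.sum_le_sum fun y _ => hnode h y
      have h2 : 0 ≤ ∑ j ∈ range h, S (j + 1) := Finset.sum_nonneg fun j _ => hS0 _
      have h3 : (∑ j ∈ range h, S (j + 1)) / w ≤ ∑ j ∈ range h, S (j + 1) := div_le_self h2 hw1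
      have h4 : (∑ y ∈ range (m ^ (k - (h + 1))), ∑ i ∈ range m, ch h (y * m + i)) / w ≤
          (((w : ℝ) ^ h)⁻¹ * S 0 + ∑ j ∈ range h, S (j + 1)) / w := by gcongr
      have h5 : (((w : ℝ) ^ h)⁻¹ * S 0 + ∑ j ∈ range h, S (j + 1)) / w =
          ((w : ℝ) ^ (h + 1))⁻¹ * S 0 + (∑ j ∈ range h, S (j + 1)) / w := by
        field_simp
        ring
      rw [Finset.sum_range_succ]
      linarith
  have hk := hind k le_rfl
  simp only [Nat.sub_self, pow_zero, range_one, sum_singleton] at hk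
  have h6 : ‖ψ (t k 0) - 1‖ ^ 2 ≤ 4 * ch k 0 := by
    simp only [hch]
    split_ifs with h
    · have : ‖ψ (t k 0) - 1‖ ≤ 2 := by
        refine (norm_sub_le _ _).trans ?_
        rw [AddChar.norm_apply, norm_one]; norm_num
      nlinarith [norm_nonneg (ψ (t k 0) - 1)]
    · rw [not_not.1 h]; simp
  have h7 : ∀ h, ∑ y ∈ range (m ^ (k - h)), ∑ s ∈ range (2 * L ^ w),
      (4 * wt k w h / (2 * L ^ w)) * ‖ψ (s • gen t m h y) - 1‖ ^ 2 = 4 * (wt k w h * S h) := by
    intro h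
    simp only [hS, hE]
    rw [Finset.mul_sum, Finset.mul_sum]
    refine Finset.sum_congr rfl fun y _ => ?_
    rw [← Finset.mul_sum]
    field_simp
  simp_rw [h7]
  rw [← Finset.mul_sum, Finset.sum_range_succ']
  simp only [wt, one_mul]
  linarith

theorem tree_poincare [Fintype G] (k m L w : ℕ) (hw : 1 ≤ w) (P : ℕ → ℕ → ℕ) (t : ℕ → ℕ → G)
    (hP0 : ∀ h y, 0 < P h y) (hPL : ∀ h y, P h y ≤ L)
    (hcop : ∀ h y y', Nat.Coprime (P (h + 1) y) (P h y')) (ht : ∀ h y, P h y • t h y = 0)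
    (F : G → lp (fun _ : ℕ => ℝ) 1) :
    ∑ z, ‖F (z + t k 0) - F z‖ ≤ ∑ h ∈ range (k + 1), ∑ y ∈ range (m ^ (k - h)),
      ∑ s ∈ range (2 * L ^ w), (4 * wt k w h / (2 * L ^ w)) *
        ∑ z, ‖F (z + s • gen t m h y) - F z‖ := by
  have := poincare_l1 (G := G)
    ((range (k + 1)).sigma fun h => range (m ^ (k - h)) ×ˢ range (2 * L ^ w))
    (fun i => 4 * wt k w i.1 / (2 * L ^ w)) (fun i => i.2.2 • gen t m i.1 i.2.1) (t k 0)
    (fun ψ => by
      rw [Finset.sum_sigma]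
      simp_rw [Finset.sum_product]
      exact tree_char k m L w hw P t hP0 hPL hcop ht ψ) F
  rw [Finset.sum_sigma] at this
  simp_rw [Finset.sum_product] at this
  exact this

end Crest.Agent.R210
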