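import Crest.Agent.R210.Edit
import Crest.Agent.R210.Tree
import Crest.Agent.R210.Digits

/-! The strings of the construction. -/

set_option autoImplicit false

namespace Crest.Agent.R210

open Finset Crest.GeometryTopology.EditDistance
open scoped List

instance PP_neZero (m h y : ℕ) : NeZero (PP m h y) := ⟨(PP_prime m h y).ne_zero⟩

/-- the group of parameters -/
abbrev GG (k m : ℕ) : Type := (b : Fin (k + 1) × Fin (m ^ k)) → ZMod (PP m b.1 b.2)

/-- coordinate of a node -/
noncomputable def ev (k m h y : ℕ) (z : GG k m) : ZMod (PP m h y) :=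
  if hb : h < k + 1 ∧ y < m ^ k then z (⟨h, hb.1⟩, ⟨y, hb.2⟩) else 0

/-- unit vector of a node -/
noncomputable def tt (k m h y : ℕ) : GG k m :=
  fun b => if (b.1 : ℕ) = h ∧ (b.2 : ℕ) = y then 1 else 0

variable {k m N L : ℕ}

lemma ev_add (h y : ℕ) (z z' : GG k m) : ev k m h y (z + z') = ev k m h y z + ev k m h y z' := by
  unfold ev; split_ifs <;> simp

lemma ev_zero (h y : ℕ) : ev k m h y 0 = 0 := by
  unfold ev; split_ifs <;> simp

lemma ev_nsmul (h y s : ℕ) (z : GG k m) : ev k m h y (s • z) = s * ev k m h y z := by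
  unfold ev; split_ifs <;> simp

lemma ev_sum (h y : ℕ) (f : ℕ → GG k m) (r : ℕ) :
    ev k m h y (∑ i ∈ range r, f i) = ∑ i ∈ range r, ev k m h y (f i) := by
  induction r with
  | zero => simp [ev_zero]
  | succ r ih => rw [sum_range_succ, sum_range_succ, ev_add, ih]

lemma ev_tt {h y : ℕ} (hh : h ≤ k) (hy : y < m ^ k) (h' y' : ℕ) :
    ev k m h y (tt k m h' y') = if h = h' ∧ y = y' then 1 else 0 := by
  unfold ev
  rw [dif_pos ⟨by omega, hy⟩]
  rfl

lemma PP_smul_tt (h y : ℕ) : PP m h y • tt k m h y = 0 := by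
  funext b
  simp only [tt, Pi.smul_apply, Pi.zero_apply]
  split_ifs with hb
  · obtain ⟨rfl, rfl⟩ := hb
    simp
  · simp

lemma ev_gen (hm : 0 < m) {h y : ℕ} (hh : h ≤ k) (hy : y < m ^ k) (j y' : ℕ) :
    ev k m h y (gen (tt k m) m (j + 1) y') =
      (if h = j + 1 ∧ y = y' then 1 else 0) + if h = j ∧ y / m = y' then 1 else 0 := by
  rw [gen, ev_add, ev_sum, ev_tt hh hy]
  congr 1
  simp_rw [ev_tt hh hy]
  split_ifs with hc
  · obtain ⟨rfl, rfl⟩ := hc
    rw [Finset.sum_eq_single (y % m)]
    · rw [if_pos ⟨rfl, (Nat.div_add_mod' y m).symm⟩]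
    · intro i hi hne
      rw [if_neg]
      rintro ⟨-, h2⟩
      apply hne
      have h3 := Nat.div_add_mod' y m
      omega
    · intro h1; exact absurd (mem_range.2 (Nat.mod_lt _ hm)) h1
  · refine Finset.sum_eq_zero fun i hi => if_neg ?_
    rintro ⟨h1, h2⟩
    apply hc
    refine ⟨h1, ?_⟩
    rw [h2, mul_comm, Nat.mul_add_div hm, Nat.div_eq_of_lt (mem_range.1 hi), add_zero]

/-- value shown for a node -/
noncomputable def sv (k m h y : ℕ) (z : GG k m) (c : ℕ) : ℕ :=
  (ev k m h y z + (c : ZMod (PP m h y))).val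

/-- the alphabet -/
abbrev Alph (k m L : ℕ) : Type := Fin (m ^ k) × (Fin (k + 1) → Fin L)

/-- the symbol at position `p` -/
noncomputable def sym (k m N L : ℕ) [NeZero (m ^ k)] [NeZero L] (z : GG k m) (p : ℕ) :
    Alph k m L :=
  (Fin.ofNat _ (idn k m N 0 p),
    fun h => Fin.ofNat L (sv k m h (idn k m N h p) z (sg m N (h + 1) p + sg m N h p)))

/-- the word -/
noncomputable def word (k m N L : ℕ) [NeZero (m ^ k)] [NeZero L] (z : GG k m) :
    List (Alph k m L) := (List.range ((N * m) ^ k)).map (sym k m N L z)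

variable [NeZero (m ^ k)] [NeZero L]

lemma length_word (z : GG k m) : (word k m N L z).length = (N * m) ^ k := by simp [word]

lemma ofNat_inj {M a b : ℕ} [NeZero M] (ha : a < M) (hb : b < M)
    (h : Fin.ofNat M a = Fin.ofNat M b) : a = b := by
  have := congrArg Fin.val h
  simpa [Nat.mod_eq_of_lt ha, Nat.mod_eq_of_lt hb] using this

lemma lucky_of_sym (hm : 0 < m) (hL : ∀ h y, PP m h y ≤ L) (z : GG k m) {p p' : ℕ}
    (hp : p < (N * m) ^ k) (hp' : p' < (N * m) ^ k)
    (he : sym k m N L z p = sym k m N L (z + tt k m k 0) p') :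
    ∃ h, h < k ∧ sig m N h p ≠ sig m N h p' ∧
      sig m N h p ≡ sig m N h p' [MOD PP m h (idn k m N h p)] := by
  classical
  have h0 : idn k m N 0 p = idn k m N 0 p' :=
    ofNat_inj (idn_lt' hm _ _) (idn_lt' hm _ _) (congrArg Prod.fst he)
  have hid := idn_eq_of_zero hm h0
  have hval : ∀ h, h ≤ k → ((sg m N (h + 1) p + sg m N h p : ℕ) : ZMod (PP m h (idn k m N h p))) =
      (if h = k ∧ idn k m N h p = 0 then 1 else 0) + (sg m N (h + 1) p' + sg m N h p' : ℕ) := by
    intro h hh
    have h1 := congrFun (congrArg Prod.snd he) ⟨h, by omega⟩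
    simp only [sym] at h1
    rw [← hid h hh] at h1
    have h2 := ofNat_inj ((ZMod.val_lt _).trans_le (hL _ _)) ((ZMod.val_lt _).trans_le (hL _ _)) h1
    have h3 := ZMod.val_injective _ h2
    rw [ev_add, ev_tt hh (idn_lt' hm _ _), add_assoc] at h3
    exact add_left_cancel h3
  have hex : ∃ h, h < k ∧ sig m N h p ≠ sig m N h p' := by
    have h1 := hval k le_rfl
    rw [if_pos ⟨rfl, idn_top p⟩] at h1
    have h2 : sg m N k p ≠ sg m N k p' := by
      intro h2
      have e1 : sg m N (k + 1) p = sg m N (k + 1) p' := (sig_top hm hp).trans (sig_top hm hp').symm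
      rw [h2, e1] at h1
      have := Fact.mk (PP_prime m k (idn k m N k p))
      exact one_ne_zero (right_eq_add.1 h1)
    cases k with
    | zero => exact absurd rfl h2
    | succ k => exact ⟨k, by omega, h2⟩
  have hspec := Nat.find_spec hex
  have hmin := fun h => Nat.find_min hex (m := h)
  generalize Nat.find hex = h at hspec hmin
  refine ⟨h, hspec.1, hspec.2, ?_⟩
  have h1 := hval h hspec.1.le
  rw [if_neg (by omega), zero_add] at h1
  have h2 : sg m N h p = sg m N h p' := by
    cases h with
    | zero => rfl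
    | succ h =>
      by_contra hne
      exact hmin h (by omega) ⟨by omega, hne⟩
  rw [h2] at h1
  push_cast at h1
  exact (ZMod.natCast_eq_natCast_iff _ _ _).1 (add_right_cancel h1)

lemma common_le (hm : 0 < m) (hN : 0 < N) (hL : ∀ h y, PP m h y ≤ L) {q : ℕ} (hq : N ≤ 2 ^ q)
    (z : GG k m) (W : List (Alph k m L)) (h1 : W <+ word k m N L z)
    (h2 : W <+ word k m N L (z + tt k m k 0)) : m * W.length ≤ k * (2 * q * (N * m) ^ k) := by
  classical
  obtain ⟨l₁, hl₁, e₁⟩ := List.sublist_map_iff.1 h1
  obtain ⟨l₂, hl₂, e₂⟩ := List.sublist_map_iff.1 h2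
  have len₁ : l₁.length = W.length := by rw [e₁]; simp
  have len₂ : l₂.length = W.length := by rw [e₂]; simp
  have s₁ : l₁.Pairwise (· < ·) := List.pairwise_lt_range.sublist hl₁
  have s₂ : l₂.Pairwise (· < ·) := List.pairwise_lt_range.sublist hl₂
  let f : Fin W.length → ℕ := fun t => l₁[t.1]'(by rw [len₁]; exact t.2)
  let g : Fin W.length → ℕ := fun t => l₂[t.1]'(by rw [len₂]; exact t.2)
  have hf : StrictMono f := fun t t' h => List.pairwise_iff_getElem.1 s₁ _ _ _ _ h
  have hg : StrictMono g := fun t t' h => List.pairwise_iff_getElem.1 s₂ _ _ _ _ h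
  have hfn : ∀ t, f t < (N * m) ^ k := fun t => List.mem_range.1 (hl₁.subset (List.getElem_mem _))
  have hgn : ∀ t, g t < (N * m) ^ k := fun t => List.mem_range.1 (hl₂.subset (List.getElem_mem _))
  have hsym : ∀ t, sym k m N L z (f t) = sym k m N L (z + tt k m k 0) (g t) := by
    intro t
    have a1 : W[t.1] = sym k m N L z (f t) := by simp only [e₁, f, List.getElem_map]
    have a2 : W[t.1] = sym k m N L (z + tt k m k 0) (g t) := by
      simp only [e₂, g, List.getElem_map]
    rw [← a1, a2]
  have hsub : (univ : Finset (Fin W.length)) ⊆ (range k).biUnion fun h =>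
      univ.filter fun t => sig m N h (f t) ≠ sig m N h (g t) ∧
        sig m N h (f t) ≡ sig m N h (g t) [MOD PP m h (idn k m N h (f t))] := by
    intro t _
    obtain ⟨h, hh, h3⟩ := lucky_of_sym hm hL z (hfn t) (hgn t) (hsym t)
    exact mem_biUnion.2 ⟨h, mem_range.2 hh, mem_filter.2 ⟨mem_univ _, h3⟩⟩
  have h3 := (Finset.card_le_card hsub).trans Finset.card_biUnion_le
  rw [card_univ, Fintype.card_fin] at h3
  calc m * W.length ≤ _ := Nat.mul_le_mul_left _ h3
    _ ≤ ∑ h ∈ range k, 2 * q * (N * m) ^ k := by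
        rw [Finset.mul_sum]
        exact Finset.sum_le_sum fun h hh => card_lucky hm hN hq (mem_range.1 hh) f g hf hg hfn hgn
    _ = _ := by simp

omit [NeZero (m ^ k)] [NeZero L] in
lemma near_of_map {β : Type*} {c : β → List Bool} {b : ℕ} (hc : Code c b) (n : ℕ) (u v : ℕ → β)
    (bad : ℕ → Prop) [DecidablePred bad] (φ : ℕ → ℕ) (h1 : ∀ p, p < n → ¬ bad p → φ p < n)
    (h2 : ∀ p p', p < p' → p' < n → ¬ bad p → ¬ bad p' → φ p < φ p')
    (h3 : ∀ p, p < n → ¬ bad p → v p = u (φ p)) :
    editDist (((List.range n).map v).flatMap c) (((List.range n).map u).flatMap c) ≤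
      2 * b * ((range n).filter bad).card := by
  set l := (List.range n).filter fun p => ¬ bad p with hl
  have hmem : ∀ p ∈ l, p < n ∧ ¬ bad p := by
    intro p hp
    simpa [hl] using hp
  have hs : l.Pairwise (· < ·) := List.pairwise_lt_range.sublist List.filter_sublist
  have hs' : (l.map φ).Pairwise (· < ·) := by
    rw [List.pairwise_map]
    exact hs.imp_of_mem fun {p p'} hp hp' h => h2 p p' h (hmem p' hp').1 (hmem p hp).2 (hmem p' hp').2
  have hsub : l.map φ <+ List.range n := by
    refine List.sublist_of_subperm_of_pairwise (r := (· < ·)) ?_ hs' List.pairwise_lt_range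
    refine List.Nodup.subperm (hs'.imp fun h => h.ne) ?_
    intro x hx
    obtain ⟨p, hp, rfl⟩ := List.mem_map.1 hx
    exact List.mem_range.2 (h1 p (hmem p hp).1 (hmem p hp).2)
  have hW1 : l.map v <+ (List.range n).map v := List.filter_sublist.map v
  have hW2 : l.map v <+ (List.range n).map u := by
    have : l.map v = (l.map φ).map u := by
      rw [List.map_map]
      exact List.map_congr_left fun p hp => h3 p (hmem p hp).1 (hmem p hp).2
    rw [this]
    exact hsub.map u
  have h4 := editDist_code_le hc hW1 hW2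
  have h5 : ((range n).filter bad).card + l.length = n := by
    have := Finset.card_filter_add_card_filter_not (s := range n) bad
    rw [card_range] at this
    exact this
  simp only [List.length_map, List.length_range] at h4
  have h6 : b * n = b * ((range n).filter bad).card + b * l.length := by rw [← mul_add, h5]
  rw [mul_assoc]
  omega

lemma near_leaf (hm : 0 < m) {c : Alph k m L → List Bool} {b : ℕ} (hc : Code c b) (z : GG k m)
    (s y : ℕ) :
    editDist ((word k m N L (z + s • gen (tt k m) m 0 y)).flatMap c) ((word k m N L z).flatMap c) ≤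
      2 * b * ((range ((N * m) ^ k)).filter fun p => idn k m N 0 p = y).card := by
  refine near_of_map hc _ _ _ _ id (fun p hp _ => hp) (fun p p' h _ _ _ => h) ?_
  intro p _ hp
  unfold sym
  congr 1
  funext h
  congr 1
  unfold sv
  rw [ev_add, ev_nsmul, gen, ev_tt (by omega) (idn_lt' hm _ _), if_neg]
  · simp
  · rintro ⟨h1, h2⟩
    rw [h1] at h2
    exact hp h2

lemma near_node (hm : 0 < m) (hN : 0 < N) {c : Alph k m L → List Bool} {b : ℕ} (hc : Code c b)
    (z : GG k m) {j : ℕ} (hj : j < k) (s y : ℕ) :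
    editDist ((word k m N L (z + s • gen (tt k m) m (j + 1) y)).flatMap c)
        ((word k m N L z).flatMap c) ≤
      2 * b * ((range ((N * m) ^ k)).filter fun p =>
        N ≤ sig m N j p + s ∧ idn k m N (j + 1) p = y).card := by
  set cc : ℕ → ℕ := fun p => if idn k m N (j + 1) p = y then s else 0 with hcc
  have hgood : ∀ p, ¬ (N ≤ sig m N j p + s ∧ idn k m N (j + 1) p = y) → sig m N j p + cc p < N := by
    intro p hp
    simp only [hcc]
    split_ifs with h
    · by_contra h1
      exact hp ⟨by omega, h⟩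
    · exact Nat.mod_lt _ hN
  refine near_of_map hc _ _ _ _ (fun p => p + cc p * ((N * m) ^ j * m))
    (fun p hp hb => shift_lt hm hN (hgood p hb) hj hp) ?_ ?_
  · intro p p' hpp _ hb hb'
    by_cases he : idn k m N (j + 1) p = idn k m N (j + 1) p'
    · have : cc p = cc p' := by simp only [hcc, he]
      simp only [this]
      omega
    · have h1 : p / (N * m) ^ (j + 1) ≠ p' / (N * m) ^ (j + 1) := by
        intro h1
        apply he
        unfold idn
        rw [h1]
      have h2 : p / (N * m) ^ (j + 1) ≤ p' / (N * m) ^ (j + 1) := Nat.div_le_div_right hpp.le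
      apply Nat.lt_of_div_lt_div (c := (N * m) ^ (j + 1))
      rw [shift_div_succ hm hN (hgood p hb), shift_div_succ hm hN (hgood p' hb')]
      omega
  · intro p _ hb
    have hg := hgood p hb
    unfold sym
    simp only [shift_idn hm hN hg hj, shift_sg hm hN hg]
    congr 1
    funext h
    congr 1
    unfold sv
    congr 1
    rw [ev_add, ev_nsmul, ev_gen hm (by omega) (idn_lt' hm _ _)]
    push_cast
    have e1 : (s : ZMod (PP m h (idn k m N h p))) *
        (if (h : ℕ) = j + 1 ∧ idn k m N h p = y then 1 else 0) =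
        if (h : ℕ) = j + 1 then (cc p : ZMod (PP m h (idn k m N h p))) else 0 := by
      by_cases h1 : (h : ℕ) = j + 1
      · have h2 : idn k m N h p = idn k m N (j + 1) p := by rw [h1]
        simp only [hcc, ← h2, h1, true_and, if_true]
        split_ifs <;> simp
      · simp [h1]
    have e2 : (s : ZMod (PP m h (idn k m N h p))) *
        (if (h : ℕ) = j ∧ idn k m N h p / m = y then 1 else 0) =
        if (h : ℕ) = j then (cc p : ZMod (PP m h (idn k m N h p))) else 0 := by
      by_cases h1 : (h : ℕ) = j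
      · have h2 : idn k m N h p / m = idn k m N (j + 1) p := by rw [h1, idn_div hm hj]
        simp only [hcc, ← h2, h1, true_and, if_true]
        split_ifs <;> simp
      · simp [h1]
    rw [mul_add, e1, e2]
    ring

end Crest.Agent.R210
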